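import Vale.Agent.P159.Model

/-!
# One spin against its local field

Given the other spins, one spin feels a field of length at most the sum of the incident
couplings, so every bond energy is at most `bessel K`.
-/

open MeasureTheory Filter Topology
open scoped Real

namespace Vale.Agent.P159

lemma cosA_add_pi (x : Angles) : cosA (x + (π : Angles)) = -cosA x := by
  induction x using QuotientAddGroup.induction_on with
  | H t => rw [← AddCircle.coe_add, cosA_coe, cosA_coe, Real.cos_add_pi]

lemma integral_cosA : ∫ t, cosA t ∂uni = 0 := by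
  have h := integral_add_right_eq_self (μ := uni) cosA (π : Angles)
  simp only [cosA_add_pi, integral_neg] at h
  linarith

lemma continuous_expCos (ρ : ℝ) : Continuous fun t => Real.exp (ρ * cosA t) := by fun_prop

lemma expCos_pos (ρ : ℝ) : 0 < ∫ t, Real.exp (ρ * cosA t) ∂uni :=
  integral_exp_pos (integrable_of_continuous (continuous_expCos ρ))

/-- The ratio `I₁/I₀` is monotone. -/
lemma bessel_mono {ρ K : ℝ} (h : ρ ≤ K) : bessel ρ ≤ bessel K := by
  rw [bessel, bessel, div_le_div_iff₀ (expCos_pos ρ) (expCos_pos K)]
  have hpt : ∀ s t, cosA s * Real.exp (ρ * cosA s) * Real.exp (K * cosA t) +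
      cosA t * Real.exp (ρ * cosA t) * Real.exp (K * cosA s) ≤
      cosA s * Real.exp (K * cosA s) * Real.exp (ρ * cosA t) +
      cosA t * Real.exp (K * cosA t) * Real.exp (ρ * cosA s) := by
    intro s t
    have e : ∀ x, Real.exp (K * x) = Real.exp ((K - ρ) * x) * Real.exp (ρ * x) := fun x => by
      rw [← Real.exp_add]; ring_nf
    rw [e, e]
    have : 0 ≤ (cosA s - cosA t) *
        (Real.exp ((K - ρ) * cosA s) - Real.exp ((K - ρ) * cosA t)) := by
      rcases le_total (cosA t) (cosA s) with hts | hts
      · exact mul_nonneg (sub_nonneg.2 hts)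
          (sub_nonneg.2 (Real.exp_le_exp.2 (mul_le_mul_of_nonneg_left hts (sub_nonneg.2 h))))
      · exact mul_nonneg_of_nonpos_of_nonpos (sub_nonpos.2 hts)
          (sub_nonpos.2 (Real.exp_le_exp.2 (mul_le_mul_of_nonneg_left hts (sub_nonneg.2 h))))
    nlinarith [mul_nonneg this (mul_pos (Real.exp_pos (ρ * cosA s))
      (Real.exp_pos (ρ * cosA t))).le]
  have hs : ∀ s, (cosA s * Real.exp (ρ * cosA s)) * (∫ t, Real.exp (K * cosA t) ∂uni) +
      (∫ t, cosA t * Real.exp (ρ * cosA t) ∂uni) * Real.exp (K * cosA s) ≤
      (cosA s * Real.exp (K * cosA s)) * (∫ t, Real.exp (ρ * cosA t) ∂uni) +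
      (∫ t, cosA t * Real.exp (K * cosA t) ∂uni) * Real.exp (ρ * cosA s) := by
    intro s
    rw [← integral_const_mul, ← integral_mul_const, ← integral_const_mul, ← integral_mul_const,
      ← integral_add (integrable_of_continuous (by fun_prop))
        (integrable_of_continuous (by fun_prop)),
      ← integral_add (integrable_of_continuous (by fun_prop))
        (integrable_of_continuous (by fun_prop))]
    exact integral_mono (integrable_of_continuous (by fun_prop))
      (integrable_of_continuous (by fun_prop)) (hpt s)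
  have h2 := integral_mono (μ := uni) (integrable_of_continuous (by fun_prop))
    (integrable_of_continuous (by fun_prop)) hs
  rw [integral_add (integrable_of_continuous (by fun_prop))
      (integrable_of_continuous (by fun_prop)),
    integral_add (integrable_of_continuous (by fun_prop))
      (integrable_of_continuous (by fun_prop)),
    integral_mul_const, integral_const_mul, integral_mul_const, integral_const_mul] at h2
  linarith

lemma bessel_zero : bessel 0 = 0 := by simp [bessel, integral_cosA]

lemma bessel_nonneg {K : ℝ} (hK : 0 ≤ K) : 0 ≤ bessel K := bessel_zero ▸ bessel_mono hK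

/-- The ratio `I₁/I₀` is below one. -/
lemma bessel_lt_one (K : ℝ) : bessel K < 1 := by
  rw [bessel, div_lt_one (expCos_pos K), ← sub_pos,
    ← integral_sub (integrable_of_continuous (continuous_expCos K))
      (integrable_of_continuous (by fun_prop))]
  have : Measure.IsOpenPosMeasure uni := inferInstance
  refine (show Continuous fun t => Real.exp (K * cosA t) - cosA t * Real.exp (K * cosA t)
    by fun_prop).integral_pos_of_hasCompactSupport_nonneg_nonzero
    (HasCompactSupport.of_compactSpace _) (fun t => ?_) (x := (π : Angles)) ?_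
  · simp only [Pi.zero_apply]
    nlinarith [cosA_le_one t, Real.exp_pos (K * cosA t)]
  · simp only [cosA_coe, Real.cos_pi]
    have := Real.exp_pos (K * -1)
    linarith

/-- Along one circle, a bond energy in a field of length at most `K` is at most
`bessel K`. -/
lemma field_le {K : ℝ} (u v : ℝ) (huv : u ^ 2 + v ^ 2 ≤ K ^ 2) (hK : 0 ≤ K) (c : Angles) :
    ∫ t, (cosA (c + t) - bessel K) * Real.exp (u * cosA t + v * sinA t) ∂uni ≤ 0 := by
  obtain ⟨ρ, φ, hρ0, hρK, rfl, rfl⟩ : ∃ ρ φ : ℝ, 0 ≤ ρ ∧ ρ ≤ K ∧
      u = ρ * Real.cos φ ∧ v = ρ * Real.sin φ := by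
    refine ⟨‖(⟨u, v⟩ : ℂ)‖, Complex.arg ⟨u, v⟩, norm_nonneg _, ?_,
      (Complex.norm_mul_cos_arg ⟨u, v⟩).symm, (Complex.norm_mul_sin_arg ⟨u, v⟩).symm⟩
    rw [Complex.norm_eq_sqrt_sq_add_sq, ← Real.sqrt_sq hK]
    exact Real.sqrt_le_sqrt huv
  rw [← integral_add_right_eq_self _ (φ : Angles)]
  have hfield : ∀ t : Angles, ρ * Real.cos φ * cosA (t + (φ : Angles)) +
      ρ * Real.sin φ * sinA (t + (φ : Angles)) = ρ * cosA t := by
    intro t
    induction t using QuotientAddGroup.induction_on with
    | H s =>
      rw [← AddCircle.coe_add, cosA_coe, sinA_coe, cosA_coe, Real.cos_add, Real.sin_add]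
      linear_combination ρ * Real.cos s * Real.sin_sq_add_cos_sq φ
  simp only [hfield]
  set d : Angles := c + (φ : Angles)
  have hsum : ∀ t, c + (t + (φ : Angles)) = d + t := fun t => by simp only [d]; abel
  simp only [hsum, cosA_add]
  have hodd : ∫ t, sinA t * Real.exp (ρ * cosA t) ∂uni = 0 := by
    have h := integral_neg_eq_self (μ := uni) (f := fun t => sinA t * Real.exp (ρ * cosA t))
    simp only [sinA_neg, cosA_neg, neg_mul, integral_neg] at h
    linarith
  have hsplit : (fun t => (cosA d * cosA t - sinA d * sinA t - bessel K) *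
      Real.exp (ρ * cosA t)) = fun t => cosA d * (cosA t * Real.exp (ρ * cosA t)) -
        sinA d * (sinA t * Real.exp (ρ * cosA t)) - bessel K * Real.exp (ρ * cosA t) := by
    funext t; ring
  rw [hsplit, integral_sub (integrable_of_continuous (by fun_prop))
    (integrable_of_continuous (by fun_prop)), integral_sub
    (integrable_of_continuous (by fun_prop)) (integrable_of_continuous (by fun_prop)),
    integral_const_mul, integral_const_mul, integral_const_mul, hodd, mul_zero, sub_zero]
  have hm := bessel_mono hρK
  have h0 := bessel_nonneg hρ0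
  rw [bessel, div_le_iff₀ (expCos_pos ρ)] at hm
  rw [bessel, le_div_iff₀ (expCos_pos ρ), zero_mul] at h0
  nlinarith [cosA_le_one d]

variable {V : Type*} [Fintype V] [DecidableEq V]

/-- The sum of the couplings at a vertex. -/
noncomputable def starSum (E : Finset (V × V)) (J : V × V → ℝ) (x : V) : ℝ :=
  ∑ e ∈ E, if e.1 = x ∨ e.2 = x then J e else 0

/-- Bond energies are bounded by the Bessel ratio of the largest possible local field. -/
theorem bond_le (E : Finset (V × V)) (J : V × V → ℝ) (K : ℝ) (hloop : ∀ e ∈ E, e.1 ≠ e.2)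
    (hJ : ∀ e ∈ E, 0 ≤ J e) (hK : ∀ x, starSum E J x ≤ K) {x y : V} (hxy : x ≠ y) :
    ∫ θ, cosA (θ x - θ y) * weight E J θ ∂uniV V ≤ bessel K * partition E J := by
  have hK0 : 0 ≤ K := le_trans (Finset.sum_nonneg fun e he => by
    split_ifs with h <;> simp [hJ e he]) (hK x)
  rw [partition, ← integral_const_mul, ← sub_nonpos,
    ← integral_sub (integrable_of_continuous (by unfold weight; fun_prop))
      (integrable_of_continuous (by unfold weight; fun_prop))]
  set F : Config V → ℝ := fun θ =>
    cosA (θ x - θ y) * weight E J θ - bessel K * weight E J θ with hF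
  have hFc : Continuous F := ((by fun_prop : Continuous fun θ : Config V =>
    cosA (θ x - θ y)).mul (continuous_weight E J)).sub
      (continuous_const.mul (continuous_weight E J))
  have hshift : ∀ t : Angles, ∫ θ, F (θ + Pi.single x t) ∂uniV V = ∫ θ, F θ ∂uniV V := fun t =>
    integral_add_right_eq_self F _
  have hswap : ∫ θ, F θ ∂uniV V = ∫ θ, (∫ t, F (θ + Pi.single x t) ∂uni) ∂uniV V := by
    rw [← integral_integral_swap]
    · simp only [hshift, integral_const]
      simp
    · refine integrable_of_continuous ?_
      exact hFc.comp (continuous_snd.add ((continuous_single x).comp continuous_fst))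
  rw [hswap]
  refine integral_nonpos fun θ => ?_
  -- the field at `x`
  let φ : V × V → Angles := fun e => if e.1 = x then θ x - θ e.2 else θ x - θ e.1
  let S := E.filter fun e => e.1 = x ∨ e.2 = x
  let R := ∑ e ∈ E.filter (fun e => ¬(e.1 = x ∨ e.2 = x)), J e * cosA (θ e.1 - θ e.2)
  set u := ∑ e ∈ S, J e * cosA (φ e) with hu
  set v := -∑ e ∈ S, J e * sinA (φ e) with hv
  have hexp : ∀ t, ∑ e ∈ E, J e * cosA ((θ + Pi.single x t : Config V) e.1 - (θ + Pi.single x t : Config V) e.2) =
      R + (u * cosA t + v * sinA t) := by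
    intro t
    rw [← Finset.sum_filter_add_sum_filter_not E (fun e => e.1 = x ∨ e.2 = x), add_comm]
    congr 1
    · refine Finset.sum_congr rfl fun e he => ?_
      simp only [Finset.mem_filter, not_or] at he
      simp [he.2.1, he.2.2]
    · rw [hu, hv, Finset.sum_mul, ← Finset.sum_neg_distrib, Finset.sum_mul,
        ← Finset.sum_add_distrib]
      refine Finset.sum_congr rfl fun e he => ?_
      simp only [S, Finset.mem_filter] at he
      by_cases h1 : e.1 = x
      · have h2 : e.2 ≠ x := fun h => hloop e he.1 (h1.trans h.symm)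
        simp only [Pi.add_apply, h1, Pi.single_eq_same, Pi.single_eq_of_ne h2, add_zero, φ, if_true]
        rw [add_sub_right_comm, cosA_add]
        ring
      · have h2 : e.2 = x := he.2.resolve_left h1
        simp only [Pi.add_apply, h2, Pi.single_eq_same, Pi.single_eq_of_ne h1, add_zero, φ,
          if_neg h1]
        rw [← cosA_neg (θ e.1 - _), neg_sub, add_sub_right_comm, cosA_add]
        ring
  have huv : u ^ 2 + v ^ 2 ≤ K ^ 2 := by
    have hn : ‖∑ e ∈ S, (J e : ℂ) * (AddCircle.toCircle (φ e) : ℂ)‖ ≤ K := by
      refine (norm_sum_le _ _).trans (le_trans (le_of_eq ?_) (hK x))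
      rw [starSum, ← Finset.sum_filter]
      refine Finset.sum_congr rfl fun e he => ?_
      rw [norm_mul, Circle.norm_coe, mul_one, Complex.norm_real, Real.norm_eq_abs,
        abs_of_nonneg (hJ e (Finset.mem_filter.1 he).1)]
    have := pow_le_pow_left₀ (norm_nonneg _) hn 2
    rw [Complex.sq_norm, Complex.normSq_apply, Complex.re_sum, Complex.im_sum] at this
    simp only [Complex.re_ofReal_mul, Complex.im_ofReal_mul] at this
    simp only [hu, hv, cosA, sinA, neg_sq, sq] at this ⊢
    linarith
  have hmain := field_le u v huv hK0 (θ x - θ y)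
  have hpt : ∀ t, F (θ + Pi.single x t) = Real.exp R *
      ((cosA (θ x - θ y + t) - bessel K) * Real.exp (u * cosA t + v * sinA t)) := by
    intro t
    simp only [hF, weight, hexp, Real.exp_add]
    simp only [Pi.add_apply, Pi.single_eq_same, Pi.single_eq_of_ne hxy.symm, add_zero]
    rw [add_sub_right_comm]
    ring
  simp only [Pi.zero_apply, hpt, integral_const_mul]
  exact mul_nonpos_of_nonneg_of_nonpos (Real.exp_pos _).le hmain

end Vale.Agent.P159
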