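import Vale.Agent.P159.Shift
import Vale.Agent.P159.Local

/-!
# A correlation bound from a trial function
-/

open MeasureTheory Filter Topology
open scoped Real

namespace Vale.Agent.P159

variable {V : Type*} [Fintype V] [DecidableEq V]

omit [DecidableEq V] in
lemma jensen_partition (E : Finset (V × V)) (J J' : V × V → ℝ) :
    partition E J' ≤ Real.exp ((∫ θ, (∑ e ∈ E, (J' e - J e) * cosA (θ e.1 - θ e.2)) *
      weight E J' θ ∂uniV V) / partition E J') * partition E J := by
  set X : Config V → ℝ := fun θ => ∑ e ∈ E, (J' e - J e) * cosA (θ e.1 - θ e.2) with hX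
  set m := (∫ θ, X θ * weight E J' θ ∂uniV V) / partition E J' with hm
  have hpt : ∀ θ, (1 + m) * weight E J' θ - X θ * weight E J' θ ≤
      Real.exp m * weight E J θ := by
    intro θ
    have hw : weight E J θ = weight E J' θ * Real.exp (-X θ) := by
      simp only [weight, hX, ← Real.exp_add, ← Finset.sum_neg_distrib, ← Finset.sum_add_distrib]
      congr 1
      exact Finset.sum_congr rfl fun e _ => by ring
    rw [hw, mul_left_comm, ← Real.exp_add]
    have := Real.add_one_le_exp (m + -X θ)
    have hp : 0 < weight E J' θ := Real.exp_pos _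
    nlinarith
  have hc1 : Continuous fun θ => X θ * weight E J' θ := by
    unfold weight
    fun_prop
  have hc2 := continuous_weight E J'
  have h := integral_mono (μ := uniV V)
    (integrable_of_continuous ((continuous_const.mul hc2).sub hc1))
    (integrable_of_continuous (continuous_const.mul (continuous_weight E J))) hpt
  simp only [Pi.mul_apply, Pi.sub_apply] at h
  rw [integral_sub (integrable_of_continuous (by unfold weight; fun_prop))
    (integrable_of_continuous hc1), integral_const_mul, integral_const_mul] at h
  have hp := partition_pos E J'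
  rw [show ∫ θ, X θ * weight E J' θ ∂uniV V = m * partition E J' by
    rw [hm, div_mul_cancel₀ _ hp.ne']] at h
  change (1 + m) * partition E J' - m * partition E J' ≤ Real.exp m * partition E J at h
  change partition E J' ≤ Real.exp m * partition E J
  linarith

/-- Every trial function bounds the two-point function. -/
theorem expect_le (E : Finset (V × V)) (hloop : ∀ e ∈ E, e.1 ≠ e.2) (b : ℝ) (hb : 0 ≤ b)
    (a : V → ℝ) (p q : V) (K : ℝ)
    (hK : ∀ x, starSum E (fun e => b * Real.cosh (a e.1 - a e.2)) x ≤ K) :
    expect E (fun _ => b) (fun θ => cosA (θ p - θ q)) ≤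
      Real.exp (-(a p - a q) +
        b * bessel K * ∑ e ∈ E, (Real.cosh (a e.1 - a e.2) - 1)) := by
  set J' : V × V → ℝ := fun e => b * Real.cosh (a e.1 - a e.2) with hJ'
  rw [expect, div_le_iff₀ (partition_pos _ _)]
  refine (integral_cos_le E (fun _ => b) a p q).trans ?_
  rw [Real.exp_add, mul_assoc]
  refine mul_le_mul_of_nonneg_left ((jensen_partition E (fun _ => b) J').trans ?_)
    (Real.exp_pos _).le
  refine mul_le_mul_of_nonneg_right (Real.exp_le_exp.2 ?_) (partition_pos _ _).le
  have hp := partition_pos E J'
  have hJpos : ∀ e ∈ E, 0 ≤ J' e := fun e _ => mul_nonneg hb (Real.cosh_pos _).le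
  rw [div_le_iff₀ hp, Finset.mul_sum, Finset.sum_mul]
  have hsum : ∀ θ : Config V, (∑ e ∈ E, (J' e - b) * cosA (θ e.1 - θ e.2)) * weight E J' θ =
      ∑ e ∈ E, (J' e - b) * (cosA (θ e.1 - θ e.2) * weight E J' θ) := fun θ => by
    rw [Finset.sum_mul]
    exact Finset.sum_congr rfl fun e _ => mul_assoc _ _ _
  simp only [hsum]
  rw [integral_finsetSum _ fun e _ => integrable_of_continuous (by unfold weight; fun_prop)]
  refine Finset.sum_le_sum fun e he => ?_
  rw [integral_const_mul]
  have h1 : 0 ≤ J' e - b := by
    have := Real.one_le_cosh (a e.1 - a e.2)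
    simp only [hJ']
    nlinarith
  refine (mul_le_mul_of_nonneg_left (bond_le E J' K hloop hJpos hK (hloop e he)) h1).trans
    (le_of_eq ?_)
  simp only [hJ']
  ring

end Vale.Agent.P159
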