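import Mathlib

/-!
# The Dirichlet energy of a truncated logarithm on the square lattice
-/

open MeasureTheory
open scoped Real

namespace Vale.Agent.P159

/-- The Euclidean length of a lattice point. -/
noncomputable def len (x : ℤ × ℤ) : ℝ := ‖(⟨x.1, x.2⟩ : ℂ)‖

lemma len_nonneg (x : ℤ × ℤ) : 0 ≤ len x := norm_nonneg _

lemma len_sq (x : ℤ × ℤ) : len x ^ 2 = (x.1 : ℝ) ^ 2 + (x.2 : ℝ) ^ 2 := by
  rw [len, Complex.sq_norm, Complex.normSq_apply]
  ring

lemma len_zero : len 0 = 0 := by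
  simp only [len, Prod.fst_zero, Prod.snd_zero, Int.cast_zero]
  exact norm_eq_zero.2 rfl

lemma len_sub_le (x y : ℤ × ℤ) : |len x - len y| ≤ len (x - y) := by
  refine (abs_norm_sub_norm_le _ _).trans (le_of_eq ?_)
  rw [len]
  congr 1
  apply Complex.ext <;> simp

/-- At most `π (m + 1)²` lattice points have length below `m`. -/
lemma card_le_area (m : ℕ) (S : Finset (ℤ × ℤ)) (hS : ∀ x ∈ S, len x < m) :
    (S.card : ℝ) ≤ π * (m + 1) ^ 2 := by
  let sq : ℤ × ℤ → Set ℂ := fun x => Complex.measurableEquivRealProd ⁻¹'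
    (Set.Ico ((x.1 : ℝ) - 1/2) (x.1 + 1/2) ×ˢ Set.Ico ((x.2 : ℝ) - 1/2) (x.2 + 1/2))
  have hmeas : ∀ x, MeasurableSet (sq x) := fun x =>
    Complex.measurableEquivRealProd.measurable (measurableSet_Ico.prod measurableSet_Ico)
  have hvol : ∀ x, volume (sq x) = 1 := fun x => by
    rw [Complex.volume_preserving_equiv_real_prod.measure_preimage
      (measurableSet_Ico.prod measurableSet_Ico).nullMeasurableSet, Measure.volume_eq_prod,
      Measure.prod_prod, Real.volume_Ico, Real.volume_Ico]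
    norm_num
  have hdisj : (S : Set (ℤ × ℤ)).PairwiseDisjoint sq := by
    intro x _ y _ hxy
    rw [Function.onFun, Set.disjoint_left]
    rintro z ⟨⟨a1, a2⟩, ⟨b1, b2⟩⟩ ⟨⟨c1, c2⟩, ⟨d1, d2⟩⟩
    have e1 : x.1 < y.1 + 1 := by exact_mod_cast (show (x.1 : ℝ) < (y.1 + 1 : ℤ) by push_cast; linarith)
    have e2 : y.1 < x.1 + 1 := by exact_mod_cast (show (y.1 : ℝ) < (x.1 + 1 : ℤ) by push_cast; linarith)
    have e3 : x.2 < y.2 + 1 := by exact_mod_cast (show (x.2 : ℝ) < (y.2 + 1 : ℤ) by push_cast; linarith)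
    have e4 : y.2 < x.2 + 1 := by exact_mod_cast (show (y.2 : ℝ) < (x.2 + 1 : ℤ) by push_cast; linarith)
    exact hxy (Prod.ext (by omega) (by omega))
  have hsub : (⋃ x ∈ S, sq x) ⊆ Metric.closedBall (0 : ℂ) ((m : ℝ) + 1) := by
    intro z hz
    simp only [Set.mem_iUnion] at hz
    obtain ⟨x, hx, ⟨a1, a2⟩, ⟨b1, b2⟩⟩ := hz
    simp only [Complex.measurableEquivRealProd_apply] at a1 a2 b1 b2
    rw [Metric.mem_closedBall, dist_zero_right]
    have h := norm_le_norm_add_norm_sub' z (⟨x.1, x.2⟩ : ℂ)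
    have h2 := Complex.norm_le_abs_re_add_abs_im (z - (⟨x.1, x.2⟩ : ℂ))
    simp only [Complex.sub_re, Complex.sub_im] at h2
    have h3 : |z.re - x.1| ≤ 1/2 := abs_le.2 ⟨by linarith, by linarith⟩
    have h4 : |z.im - x.2| ≤ 1/2 := abs_le.2 ⟨by linarith, by linarith⟩
    have := hS x hx
    rw [len] at this
    linarith
  have h := measure_mono (μ := (volume : Measure ℂ)) hsub
  rw [measure_biUnion_finset hdisj fun x _ => hmeas x, Finset.sum_congr rfl fun x _ => hvol x,
    Finset.sum_const, nsmul_eq_mul, mul_one, Complex.volume_closedBall] at h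
  have h' := ENNReal.toReal_mono (ENNReal.mul_ne_top (ENNReal.pow_ne_top ENNReal.ofReal_ne_top)
    ENNReal.coe_ne_top) h
  simp [ENNReal.toReal_ofReal (show (0 : ℝ) ≤ m + 1 by positivity)] at h'
  linarith

/-- The sum of `1 / |x|²` over `K ≤ |x| < M + 1` is at most `(1 + δ) 2 π log M + O(1)`. -/
lemma inverse_square_sum {δ : ℝ} (hδ : 0 < δ) :
    ∃ K₀ : ℕ, 2 ≤ K₀ ∧ ∀ K, K₀ ≤ K → ∀ M : ℕ, K ≤ M → ∀ S : Finset (ℤ × ℤ),
      (∀ x ∈ S, (K : ℝ) ≤ len x ∧ len x < M + 1) →
      ∑ x ∈ S, 1 / len x ^ 2 ≤ 2 * π * (1 + δ) * (1 + Real.log M) + 4 * π := by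
  obtain ⟨K₀, hK₀⟩ := exists_nat_ge (2 + 12 / δ)
  refine ⟨max K₀ 2, le_max_right _ _, fun K hK M hKM S hS => ?_⟩
  have hK2 : 2 ≤ K := le_trans (le_max_right _ _) hK
  have hKδ : 2 + 12 / δ ≤ K := hK₀.trans (by exact_mod_cast le_trans (le_max_left _ _) hK)
  let N : ℕ → ℝ := fun m => ((S.filter fun x => len x < m).card : ℝ)
  have hN : ∀ m, N m ≤ π * (m + 1) ^ 2 := fun m =>
    card_le_area m _ fun x hx => (Finset.mem_filter.1 hx).2
  have key : ∀ M', K ≤ M' → ∑ x ∈ S.filter (fun x => len x < (M' : ℝ) + 1), 1 / len x ^ 2 ≤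
      N (M' + 1) / (M' : ℝ) ^ 2 +
        2 * π * (1 + δ) * ∑ m ∈ Finset.Icc (K + 1) M', (1 : ℝ) / m := by
    intro M' hM'
    induction M', hM' using Nat.le_induction with
    | base =>
      rw [Finset.Icc_eq_empty (by omega), Finset.sum_empty, mul_zero, add_zero]
      have hf : N (K + 1) = ((S.filter fun x => len x < (K : ℝ) + 1).card : ℝ) := by
        simp [N]
      rw [hf, div_eq_mul_one_div, ← nsmul_eq_mul]
      refine Finset.sum_le_card_nsmul _ _ _ fun x hx => ?_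
      have := (hS x (Finset.mem_filter.1 hx).1).1
      exact one_div_le_one_div_of_le (by positivity) (pow_le_pow_left₀ (by positivity) this 2)
    | succ j hj ih =>
      rw [Finset.sum_Icc_succ_top (by omega)]
      have hj2 : (2 : ℝ) ≤ j := by exact_mod_cast hK2.trans hj
      have hsplit : ∑ x ∈ S.filter (fun x => len x < ((j + 1 : ℕ) : ℝ) + 1), 1 / len x ^ 2 ≤
          (∑ x ∈ S.filter (fun x => len x < (j : ℝ) + 1), 1 / len x ^ 2) +
            (N (j + 1 + 1) - N (j + 1)) * (1 / ((j : ℝ) + 1) ^ 2) := by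
        have hsub : S.filter (fun x => len x < (j : ℝ) + 1) ⊆
            S.filter (fun x => len x < ((j + 1 : ℕ) : ℝ) + 1) := by
          intro x hx
          simp only [Finset.mem_filter] at hx ⊢
          exact ⟨hx.1, by push_cast; linarith⟩
        rw [← Finset.sum_sdiff hsub, add_comm]
        gcongr
        have hcard : ((S.filter (fun x => len x < ((j + 1 : ℕ) : ℝ) + 1) \
            S.filter (fun x => len x < (j : ℝ) + 1)).card : ℝ) = N (j + 1 + 1) - N (j + 1) := by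
          rw [Finset.card_sdiff_of_subset hsub, Nat.cast_sub (Finset.card_le_card hsub)]
          simp [N]
        rw [← hcard, ← nsmul_eq_mul]
        refine Finset.sum_le_card_nsmul _ _ _ fun x hx => ?_
        simp only [Finset.mem_sdiff, Finset.mem_filter, not_and, not_lt] at hx
        exact one_div_le_one_div_of_le (by positivity)
          (pow_le_pow_left₀ (by positivity) (hx.2 hx.1.1) 2)
      have hAbel : N (j + 1) * (1 / (j : ℝ) ^ 2 - 1 / ((j : ℝ) + 1) ^ 2) ≤
          2 * π * (1 + δ) * (1 / ((j + 1 : ℕ) : ℝ)) := by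
        have hnn : 0 ≤ 1 / (j : ℝ) ^ 2 - 1 / ((j : ℝ) + 1) ^ 2 := sub_nonneg.2
          (one_div_le_one_div_of_le (by positivity)
            (pow_le_pow_left₀ (by positivity) (by linarith) 2))
        refine (mul_le_mul_of_nonneg_right (hN (j + 1)) hnn).trans ?_
        have hjδ : 2 + 12 / δ ≤ (j : ℝ) := hKδ.trans (by exact_mod_cast hj)
        have h12 : 12 ≤ δ * ((j : ℝ) - 2) := by
          have := mul_le_mul_of_nonneg_left (show 12 / δ ≤ (j : ℝ) - 2 by linarith) hδ.le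
          rwa [mul_div_cancel₀ _ hδ.ne'] at this
        push_cast
        rw [div_sub_div _ _ (by positivity) (by positivity), mul_div_assoc', mul_one_div,
          div_le_div_iff₀ (by positivity) (by positivity)]
        have hpoly : ((j : ℝ) + 2) ^ 2 * (2 * j + 1) ≤ 2 * (1 + δ) * j ^ 2 * (j + 1) := by
          have h1 := mul_le_mul_of_nonneg_right h12 (show 0 ≤ (j : ℝ) * (j + 1) by positivity)
          nlinarith [mul_nonneg (mul_nonneg hδ.le (show (0 : ℝ) ≤ j by positivity))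
            (show (0 : ℝ) ≤ j + 1 by positivity)]
        nlinarith [mul_le_mul_of_nonneg_left hpoly
          (show (0 : ℝ) ≤ π * (j + 1) by positivity)]
      push_cast at hsplit hAbel ⊢
      rw [mul_add]
      have hid : (N (j + 1 + 1) - N (j + 1)) * (1 / ((j : ℝ) + 1) ^ 2) + N (j + 1) / (j : ℝ) ^ 2 =
          N (j + 1 + 1) / ((j : ℝ) + 1) ^ 2 +
            N (j + 1) * (1 / (j : ℝ) ^ 2 - 1 / ((j : ℝ) + 1) ^ 2) := by ring
      linarith
  have h := key M hKM
  rw [Finset.filter_true_of_mem fun x hx => (hS x hx).2] at h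
  have hM : (2 : ℝ) ≤ M := by exact_mod_cast hK2.trans hKM
  have h1 : N (M + 1) / (M : ℝ) ^ 2 ≤ 4 * π := by
    rw [div_le_iff₀ (by positivity)]
    refine (hN _).trans ?_
    push_cast
    nlinarith [Real.pi_pos, mul_le_mul_of_nonneg_left
      (pow_le_pow_left₀ (by positivity) (show (M : ℝ) + 1 + 1 ≤ 2 * M by linarith) 2)
        Real.pi_pos.le]
  have h2 : ∑ m ∈ Finset.Icc (K + 1) M, (1 : ℝ) / m ≤ 1 + Real.log M := by
    refine le_trans ?_ (harmonic_le_one_add_log M)
    rw [harmonic_eq_sum_Icc]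
    push_cast
    simp only [one_div]
    exact Finset.sum_le_sum_of_subset_of_nonneg
      (Finset.Icc_subset_Icc_left (by omega)) fun m _ _ => by positivity
  nlinarith [mul_le_mul_of_nonneg_left h2 (show 0 ≤ 2 * π * (1 + δ) by positivity)]

/-- The two forward unit steps. -/
def steps : Finset (ℤ × ℤ) := {((1 : ℤ), (0 : ℤ)), ((0 : ℤ), (1 : ℤ))}

lemma len_step {e : ℤ × ℤ} (he : e ∈ steps) : len e = 1 := by
  simp only [steps, Finset.mem_insert, Finset.mem_singleton] at he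
  have h := len_sq e
  rcases he with rfl | rfl <;> norm_num at h <;> rcases h with h | h <;>
    linarith [len_nonneg ((1 : ℤ), (0 : ℤ)), len_nonneg ((0 : ℤ), (1 : ℤ))]

/-- A truncated logarithm, frozen inside radius `K` and vanishing outside radius `L`. -/
noncomputable def cap (K L : ℝ) (x : ℤ × ℤ) : ℝ := max 0 (Real.log L - Real.log (max (len x) K))

lemma cap_zero {K L : ℝ} (hK : 0 < K) (hKL : K ≤ L) : cap K L 0 = Real.log L - Real.log K := by
  rw [cap, len_zero, max_eq_right hK.le, max_eq_right (sub_nonneg.2 (Real.log_le_log hK hKL))]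

lemma cap_eq_zero {K L : ℝ} (hL : 0 < L) {x : ℤ × ℤ} (h : L ≤ len x) : cap K L x = 0 :=
  max_eq_left (sub_nonpos.2 (Real.log_le_log hL (h.trans (le_max_left _ _))))

lemma cap_eq_of_inside {K L : ℝ} {x y : ℤ × ℤ} (hx : len x ≤ K) (hy : len y ≤ K) :
    cap K L x = cap K L y := by rw [cap, cap, max_eq_right hx, max_eq_right hy]

lemma cap_sub_le {K L : ℝ} {x y : ℤ × ℤ} {ρ : ℝ} (hρ : 0 < ρ)
    (hρx : ρ ≤ max (len x) K) (hρy : ρ ≤ max (len y) K) :
    |cap K L x - cap K L y| ≤ |len x - len y| / ρ := by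
  refine (abs_max_sub_max_le_max _ _ _ _).trans (max_le ?_ ?_)
  · rw [sub_self, abs_zero]; positivity
  rw [sub_sub_sub_cancel_left, abs_sub_comm]
  have hlog : ∀ s t : ℝ, ρ ≤ s → ρ ≤ t → Real.log s - Real.log t ≤ |s - t| / ρ := by
    intro s t hs ht
    have ht' : 0 < t := hρ.trans_le ht
    rw [← Real.log_div (hρ.trans_le hs).ne' ht'.ne']
    refine (Real.log_le_sub_one_of_pos (div_pos (hρ.trans_le hs) ht')).trans ?_
    rw [div_sub_one ht'.ne']
    exact (div_le_div_of_nonneg_right (le_abs_self _) ht'.le).trans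
      (div_le_div_of_nonneg_left (abs_nonneg _) hρ ht)
  have hmax : |max (len x) K - max (len y) K| ≤ |len x - len y| := by
    simpa using abs_max_sub_max_le_abs (len x) (len y) K
  refine le_trans ?_ (div_le_div_of_nonneg_right hmax hρ.le)
  exact abs_sub_le_iff.2 ⟨hlog _ _ hρx hρy,
    abs_sub_comm (max (len x) K) _ ▸ hlog _ _ hρy hρx⟩

lemma cap_lip {K L : ℝ} (hK : 0 < K) {x e : ℤ × ℤ} (he : e ∈ steps) :
    |cap K L (x + e) - cap K L x| ≤ 1 / K := by
  refine (cap_sub_le hK (le_max_right _ _) (le_max_right _ _)).trans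
    (div_le_div_of_nonneg_right ((len_sub_le _ _).trans (le_of_eq ?_)) hK.le)
  rw [add_sub_cancel_left, len_step he]

/-- The Dirichlet energy of `cap K L` is at most `(1 + δ) 2 π log L + O(1)`. -/
lemma cap_energy {δ : ℝ} (hδ : 0 < δ) :
    ∃ K₀ : ℕ, 4 ≤ K₀ ∧ ∀ K : ℕ, K₀ ≤ K → ∃ C : ℝ, ∀ L : ℕ, K ≤ L → ∀ S : Finset (ℤ × ℤ),
      ∑ x ∈ S, ∑ e ∈ steps, (cap K L (x + e) - cap K L x) ^ 2 ≤
        2 * π * (1 + δ) * Real.log L + C := by
  obtain ⟨d, hd, hdδ⟩ : ∃ d, 0 < d ∧ (1 + d) * (1 + d) ≤ 1 + δ := by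
    have h0 : 0 < min (δ / 3) 1 := lt_min (by positivity) one_pos
    refine ⟨min (δ / 3) 1, h0, ?_⟩
    nlinarith [min_le_left (δ / 3) 1, min_le_right (δ / 3) 1]
  obtain ⟨K₁, hK₁, hsum⟩ := inverse_square_sum hd
  obtain ⟨K₂, hK₂⟩ := exists_nat_ge (40 / d + 4)
  refine ⟨max (K₁ + 4) K₂, le_trans (by omega) (le_max_left _ _), fun K hK =>
    ⟨2 * π * (1 + δ) * 2 + (1 + d) * (4 * π), fun L hKL S => ?_⟩⟩
  have hK4 : K₁ + 4 ≤ K := le_trans (le_max_left _ _) hK
  have hKd : 40 / d + 4 ≤ K := hK₂.trans (by exact_mod_cast le_trans (le_max_right _ _) hK)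
  have hK4' : (4 : ℝ) ≤ K := by exact_mod_cast le_trans (by omega) hK4
  have hL0 : (0 : ℝ) < L := by exact_mod_cast (by omega : 0 < L)
  let T := S.filter fun x => (K : ℝ) - 1 ≤ len x ∧ len x < (L : ℝ) + 1
  have hz : ∀ x ∈ S, x ∉ T → ∑ e ∈ steps, (cap K L (x + e) - cap K L x) ^ 2 = 0 := by
    intro x hx hxT
    refine Finset.sum_eq_zero fun e he => ?_
    have hd := abs_le.1 (len_sub_le (x + e) x)
    rw [add_sub_cancel_left, len_step he] at hd
    rcases lt_or_ge (len x) ((K : ℝ) - 1) with h | h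
    · rw [cap_eq_of_inside (x := x + e) (y := x) (by linarith) (by linarith), sub_self,
        zero_pow two_ne_zero]
    · have h' : (L : ℝ) + 1 ≤ len x := by
        by_contra hc
        exact hxT (Finset.mem_filter.2 ⟨hx, h, lt_of_not_ge hc⟩)
      rw [cap_eq_zero hL0 (by linarith), cap_eq_zero hL0 (by linarith), sub_zero,
        zero_pow two_ne_zero]
  rw [← Finset.sum_subset (Finset.filter_subset _ S) hz]
  have hpt : ∀ x ∈ T, ∑ e ∈ steps, (cap K L (x + e) - cap K L x) ^ 2 ≤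
      (1 + d) * (1 / len x ^ 2) := by
    intro x hx
    obtain ⟨hlo, -⟩ := (Finset.mem_filter.1 hx).2
    set ρ := len x
    have hρ3 : 3 ≤ ρ := by linarith
    have hone : ∀ e ∈ steps, |cap K L (x + e) - cap K L x| ≤
        (2 * |(x.1 : ℝ) * e.1 + (x.2 : ℝ) * e.2| + 1) / ((2 * ρ - 1) * (ρ - 1)) := by
      intro e he
      have h1 := abs_le.1 (len_sub_le (x + e) x)
      rw [add_sub_cancel_left, len_step he] at h1
      refine (cap_sub_le (show 0 < ρ - 1 by linarith)
        (le_max_of_le_left (by linarith)) (le_max_of_le_left (by linarith))).trans ?_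
      rw [← div_div]
      refine div_le_div_of_nonneg_right ?_ (by linarith)
      rw [le_div_iff₀ (by linarith)]
      have hprod : (len (x + e) - ρ) * (len (x + e) + ρ) =
          2 * ((x.1 : ℝ) * e.1 + (x.2 : ℝ) * e.2) + len e ^ 2 := by
        have h2 := len_sq (x + e); have h3 := len_sq x; have h4 := len_sq e
        simp only [Prod.fst_add, Prod.snd_add, Int.cast_add] at h2
        linear_combination h2 - h3 - h4
      rw [len_step he, one_pow] at hprod
      calc |len (x + e) - ρ| * (2 * ρ - 1)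
          ≤ |len (x + e) - ρ| * |len (x + e) + ρ| := by
            refine mul_le_mul_of_nonneg_left ?_ (abs_nonneg _)
            rw [abs_of_nonneg (by linarith : 0 ≤ len (x + e) + ρ)]
            linarith
        _ = |2 * ((x.1 : ℝ) * e.1 + (x.2 : ℝ) * e.2) + 1| := by rw [← abs_mul, hprod]
        _ ≤ _ := (abs_add_le _ _).trans (by rw [abs_mul, abs_two, abs_one])
    have hs := Finset.sum_le_sum fun e he => pow_le_pow_left₀ (abs_nonneg _) (hone e he) 2
    simp only [sq_abs] at hs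
    refine hs.trans ?_
    rw [steps, Finset.sum_pair (by decide)]
    simp only [Int.cast_one, Int.cast_zero, mul_one, mul_zero, add_zero, zero_add]
    rw [div_pow, div_pow, ← add_div, mul_one_div, div_le_div_iff₀ (pow_pos (mul_pos (by linarith) (by linarith)) 2)
      (pow_pos (by linarith) 2)]
    have hab : |(x.1 : ℝ)| + |(x.2 : ℝ)| ≤ 2 * ρ := by
      have h1 := Complex.abs_re_le_norm (⟨x.1, x.2⟩ : ℂ)
      have h2 := Complex.abs_im_le_norm (⟨x.1, x.2⟩ : ℂ)
      change |(x.1 : ℝ)| ≤ ρ at h1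
      change |(x.2 : ℝ)| ≤ ρ at h2
      linarith
    have hnum : (2 * |(x.1 : ℝ)| + 1) ^ 2 + (2 * |(x.2 : ℝ)| + 1) ^ 2 ≤
        4 * ρ ^ 2 + 8 * ρ + 2 := by
      nlinarith [len_sq x, sq_abs (x.1 : ℝ), sq_abs (x.2 : ℝ)]
    refine (mul_le_mul_of_nonneg_right hnum (by positivity)).trans ?_
    have hd40 : 40 ≤ d * ρ := by
      have := mul_le_mul_of_nonneg_left (show 40 / d ≤ ρ by linarith) hd.le
      rwa [mul_div_cancel₀ _ hd.ne'] at this
    have hexp : ((2 * ρ - 1) * (ρ - 1)) ^ 2 = 4*ρ^4 - 12*ρ^3 + 13*ρ^2 - 6*ρ + 1 := by ring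
    rw [hexp]
    nlinarith [mul_le_mul_of_nonneg_right hd40 (show 0 ≤ ρ ^ 3 by positivity),
      mul_nonneg hd.le (show 0 ≤ ρ ^ 2 * (13 * ρ - 6) by nlinarith),
      mul_nonneg hd.le (show 0 ≤ ρ ^ 3 * (ρ - 3) by
        exact mul_nonneg (by positivity) (by linarith))]
  refine (Finset.sum_le_sum hpt).trans ?_
  rw [← Finset.mul_sum]
  have h := hsum (K - 1) (by omega) L (by omega) T fun x hx => by
    obtain ⟨h1, h2⟩ := (Finset.mem_filter.1 hx).2
    rw [Nat.cast_sub (by omega), Nat.cast_one]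
    exact ⟨h1, h2⟩
  refine (mul_le_mul_of_nonneg_left h (by linarith)).trans ?_
  have hlog : 0 ≤ Real.log L := Real.log_natCast_nonneg L
  nlinarith [mul_le_mul_of_nonneg_right hdδ
    (mul_nonneg (show 0 ≤ 2 * π by positivity) (add_nonneg zero_le_one hlog)),
    mul_pos Real.pi_pos (show (0 : ℝ) < 1 + δ by linarith)]

end Vale.Agent.P159
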