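import Vale.Agent.P159.Bound
import Vale.Agent.P159.Geometry

/-!
# Power-law decay in boxes of the square lattice
-/

open MeasureTheory Filter Topology
open scoped Real

namespace Vale.Agent.P159

/-- The box `[-R, R]² ∩ ℤ²`. -/
noncomputable def box (R : ℕ) : Finset (ℤ × ℤ) :=
  Finset.Icc (-(R : ℤ)) R ×ˢ Finset.Icc (-(R : ℤ)) R

/-- The angle at a site, and `0` outside the box. -/
noncomputable def angleAt (R : ℕ) (θ : Config ↥(box R)) (x : ℤ × ℤ) : Angles :=
  if h : x ∈ box R then θ ⟨x, h⟩ else 0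

/-- `b` times the sum of cosines over nearest-neighbour pairs inside the box, each pair once. -/
noncomputable def interaction (b : ℝ) (R : ℕ) (θ : Config ↥(box R)) : ℝ :=
  b * ∑ x ∈ box R, ∑ e ∈ steps,
    if x + e ∈ box R then cosA (angleAt R θ x - angleAt R θ (x + e)) else 0

/-- The expectation of `cos (θ_0 - θ_{r e₁})` in the free boundary box of radius `R`. -/
noncomputable def correlation (b : ℝ) (R r : ℕ) : ℝ :=
  (∫ θ, cosA (angleAt R θ 0 - angleAt R θ ((r : ℤ), (0 : ℤ))) * Real.exp (interaction b R θ)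
      ∂uniV ↥(box R)) /
    ∫ θ, Real.exp (interaction b R θ) ∂uniV ↥(box R)

/-- The nearest-neighbour pairs of the box. -/
noncomputable def boxEdges (R : ℕ) : Finset (↥(box R) × ↥(box R)) :=
  Finset.univ.filter fun e => (e.2 : ℤ × ℤ) - (e.1 : ℤ × ℤ) ∈ steps

lemma mem_boxEdges {R : ℕ} {e : ↥(box R) × ↥(box R)} :
    e ∈ boxEdges R ↔ (e.2 : ℤ × ℤ) - (e.1 : ℤ × ℤ) ∈ steps := by simp [boxEdges]

lemma boxEdges_ne {R : ℕ} : ∀ e ∈ boxEdges R, e.1 ≠ e.2 := by
  intro e he h
  rw [mem_boxEdges, h, sub_self] at he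
  revert he
  decide

lemma sum_boxEdges (R : ℕ) (f : ℤ × ℤ → ℤ × ℤ → ℝ) :
    ∑ e ∈ boxEdges R, f e.1 e.2 =
      ∑ x ∈ box R, ∑ e ∈ steps, if x + e ∈ box R then f x (x + e) else 0 := by
  rw [boxEdges, Finset.sum_filter, Fintype.sum_prod_type, ← Finset.sum_coe_sort (box R)]
  refine Finset.sum_congr rfl fun x _ => ?_
  rw [Finset.sum_coe_sort (box R) (fun y => if y - (x : ℤ × ℤ) ∈ steps then f x y else 0),
    ← Finset.sum_filter, ← Finset.sum_filter]
  refine Finset.sum_nbij' (fun y => y - (x : ℤ × ℤ)) (fun e => (x : ℤ × ℤ) + e) ?_ ?_ ?_ ?_ ?_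
  · intro y hy
    simp only [Finset.coe_filter, Set.mem_ofPred_eq, Finset.mem_filter] at hy ⊢
    exact ⟨hy.2, by simpa using hy.1⟩
  · intro e he
    simp only [Finset.coe_filter, Set.mem_ofPred_eq, Finset.mem_filter] at he ⊢
    exact ⟨he.2, by simpa using he.1⟩
  · intro y _; simp
  · intro e _; simp
  · intro y _; simp

lemma starSum_box {R : ℕ} (J : ↥(box R) × ↥(box R) → ℝ) {M : ℝ} (hM : 0 ≤ M)
    (hJ : ∀ e ∈ boxEdges R, J e ≤ M) (x : ↥(box R)) : starSum (boxEdges R) J x ≤ 4 * M := by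
  rw [starSum, ← Finset.sum_filter]
  refine (Finset.sum_le_card_nsmul _ _ M fun e he => hJ e (Finset.mem_filter.1 he).1).trans ?_
  rw [nsmul_eq_mul]
  refine mul_le_mul_of_nonneg_right ?_ hM
  have hcard : ((boxEdges R).filter fun e => e.1 = x ∨ e.2 = x).card ≤
      ({((1:ℤ), (0:ℤ)), ((0:ℤ), (1:ℤ)), ((-1:ℤ), (0:ℤ)), ((0:ℤ), (-1:ℤ))} :
        Finset (ℤ × ℤ)).card := by
    refine Finset.card_le_card_of_injOn
      (fun e => if e.1 = x then (e.2 : ℤ × ℤ) - x else (e.1 : ℤ × ℤ) - x) ?_ ?_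
    · intro e he
      simp only [Finset.coe_filter, Set.mem_ofPred_eq, Finset.mem_filter, mem_boxEdges, steps, Finset.mem_insert,
        Finset.mem_singleton] at he
      obtain ⟨hs, hx⟩ := he
      by_cases h1 : e.1 = x
      · simp only [h1, if_true] at hs ⊢
        rcases hs with hs | hs <;> simp [hs]
      · have h2 : e.2 = x := hx.resolve_left h1
        simp only [h1, if_false]
        rw [← neg_sub, ← h2]
        rcases hs with hs | hs <;> simp [hs]
    · intro e he e' he' hee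
      simp only [Finset.coe_filter, Set.mem_ofPred_eq, Finset.mem_filter, mem_boxEdges] at he he'
      by_cases h1 : e.1 = x <;> by_cases h1' : e'.1 = x <;>
        simp only [h1, h1', if_true, if_false] at hee
      · exact Prod.ext (h1.trans h1'.symm) (Subtype.ext (sub_left_inj.1 hee))
      · exfalso
        have h2 := he'.2.resolve_left h1'
        have a := he.1; have a' := he'.1
        rw [h1, hee] at a
        rw [h2, ← neg_sub] at a'
        simp only [steps, Finset.mem_insert, Finset.mem_singleton] at a a'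
        rcases a with a | a <;> rw [a] at a' <;> simp at a'
      · exfalso
        have h2 := he.2.resolve_left h1
        have a := he.1; have a' := he'.1
        rw [h1', ← hee] at a'
        rw [h2, ← neg_sub] at a
        simp only [steps, Finset.mem_insert, Finset.mem_singleton] at a a'
        rcases a' with a' | a' <;> rw [a'] at a <;> simp at a
      · exact Prod.ext (Subtype.ext (sub_left_inj.1 hee))
          ((he.2.resolve_left h1).trans (he'.2.resolve_left h1').symm)
  exact_mod_cast hcard.trans (by decide)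

lemma correlation_eq (b : ℝ) {R r : ℕ} (h0 : (0 : ℤ × ℤ) ∈ box R)
    (hr : ((r : ℤ), (0 : ℤ)) ∈ box R) :
    correlation b R r = expect (boxEdges R) (fun _ => b)
      (fun θ => cosA (θ ⟨0, h0⟩ - θ ⟨_, hr⟩)) := by
  have hE : ∀ θ, Real.exp (interaction b R θ) = weight (boxEdges R) (fun _ => b) θ := by
    intro θ
    rw [weight, ← Finset.mul_sum, interaction,
      ← sum_boxEdges R (fun x y => cosA (angleAt R θ x - angleAt R θ y))]
    refine congrArg Real.exp (congrArg (b * ·) ?_)
    exact Finset.sum_congr rfl fun e _ => by simp [angleAt]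
  simp only [correlation, expect, partition, hE, angleAt, dif_pos h0, dif_pos hr]

lemma expect_cos_le_one {V : Type*} [Fintype V] (E : Finset (V × V)) (J : V × V → ℝ) (p q : V) :
    expect E J (fun θ => cosA (θ p - θ q)) ≤ 1 := by
  rw [expect, div_le_one (partition_pos _ _)]
  refine integral_mono (integrable_of_continuous (by unfold weight; fun_prop))
    (integrable_of_continuous (continuous_weight E J)) fun θ => ?_
  exact mul_le_of_le_one_left (Real.exp_pos _).le (cosA_le_one _)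

lemma bessel_pos {K : ℝ} (hK : 0 < K) : 0 < bessel K := by
  refine div_pos ?_ (expCos_pos K)
  have h : ∫ t, cosA t * (Real.exp (K * cosA t) - 1) ∂uni =
      ∫ t, cosA t * Real.exp (K * cosA t) ∂uni := by
    simp only [mul_sub, mul_one]
    rw [integral_sub (integrable_of_continuous (by fun_prop))
      (integrable_of_continuous continuous_cosA), integral_cosA, sub_zero]
  rw [← h]
  refine (show Continuous fun t => cosA t * (Real.exp (K * cosA t) - 1) by fun_prop)
    |>.integral_pos_of_hasCompactSupport_nonneg_nonzero (HasCompactSupport.of_compactSpace _)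
      (fun t => ?_) (x := ((0 : ℝ) : Angles)) ?_
  · simp only [Pi.zero_apply]
    rcases le_total 0 (cosA t) with h | h
    · exact mul_nonneg h (sub_nonneg.2 (Real.one_le_exp (mul_nonneg hK.le h)))
    · exact mul_nonneg_of_nonpos_of_nonpos h
        (sub_nonpos.2 (Real.exp_le_one_iff.2 (mul_nonpos_of_nonneg_of_nonpos hK.le h)))
  · simp only [cosA_coe, Real.cos_zero]
    have := Real.one_lt_exp_iff.2 (show 0 < K * 1 by simpa)
    linarith

lemma continuous_bessel : Continuous bessel := by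
  unfold bessel
  refine Continuous.div ?_ ?_ fun K => (expCos_pos K).ne'
  · simpa using continuous_parametric_integral_of_continuous (μ := uni)
      (show Continuous (Function.uncurry fun K t => cosA t * Real.exp (K * cosA t)) by
        fun_prop) isCompact_univ
  · simpa using continuous_parametric_integral_of_continuous (μ := uni)
      (show Continuous (Function.uncurry fun K t => Real.exp (K * cosA t)) by
        fun_prop) isCompact_univ

lemma dipole_sq {K L : ℝ} {P : ℤ × ℤ} (hL : 0 < L) (hP : 2 * L + 2 ≤ len P) (x : ℤ × ℤ)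
    {e : ℤ × ℤ} (he : e ∈ steps) :
    (cap K L (x + e) - cap K L (x + e - P) - (cap K L x - cap K L (x - P))) ^ 2 ≤
      (cap K L (x + e) - cap K L x) ^ 2 + (cap K L (x - P + e) - cap K L (x - P)) ^ 2 := by
  have hfar : ∀ y : ℤ × ℤ, L + 1 ≤ len y → cap K L (y + e) - cap K L y = 0 := by
    intro y hy
    have hd := abs_le.1 (len_sub_le (y + e) y)
    rw [add_sub_cancel_left, len_step he] at hd
    rw [cap_eq_zero hL (by linarith), cap_eq_zero hL (by linarith), sub_zero]
  rw [show x - P + e = x + e - P by abel,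
    show cap K L (x + e) - cap K L (x + e - P) - (cap K L x - cap K L (x - P)) =
      (cap K L (x + e) - cap K L x) - (cap K L (x + e - P) - cap K L (x - P)) by ring]
  rcases le_or_gt (L + 1) (len x) with h | h
  · rw [hfar x h, zero_sub, neg_sq, zero_pow two_ne_zero, zero_add]
  · have hd := abs_le.1 (len_sub_le x (x - P))
    rw [sub_sub_cancel] at hd
    have hx := abs_le.1 (len_sub_le P x)
    have hsym : len (P - x) = len (x - P) := by
      have h1 := len_sq (P - x)
      have h2 := len_sq (x - P)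
      simp only [Prod.fst_sub, Prod.snd_sub, Int.cast_sub] at h1 h2
      nlinarith [len_nonneg (P - x), len_nonneg (x - P)]
    have := hfar (x - P) (by linarith)
    rw [show x - P + e = x + e - P by abel] at this
    rw [this, sub_zero, zero_pow two_ne_zero, add_zero]

/-- The bound given by a dipole of two truncated logarithms. -/
lemma dipole_bound {b ε s : ℝ} (hb : 0 < b) (hε : 0 < ε) {K : ℕ} (hK4 : 4 ≤ K)
    (hKs : 2 * s ^ 2 ≤ Real.log (1 + ε) * (K : ℝ) ^ 2) {C₀ : ℝ}
    (hC₀ : ∀ L : ℕ, K ≤ L → ∀ S : Finset (ℤ × ℤ),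
      ∑ x ∈ S, ∑ e ∈ steps, (cap K L (x + e) - cap K L x) ^ 2 ≤
        2 * π * (1 + ε) * Real.log L + C₀)
    {r R : ℕ} (hlarge : 2 * K + 4 ≤ r) (hrR : r ≤ R) :
    correlation b R r ≤ Real.exp (-(s * (2 * (Real.log ((r - 2) / 2 : ℕ) - Real.log K))) +
      b * bessel (4 * (b * (1 + ε))) * ((1 + ε) * s ^ 2 / 2 *
        (2 * (2 * π * (1 + ε) * Real.log ((r - 2) / 2 : ℕ) + C₀)))) := by
  have h0 : (0 : ℤ × ℤ) ∈ box R := by simp [box]
  have hP : ((r : ℤ), (0 : ℤ)) ∈ box R := by simp [box]; omega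
  rw [correlation_eq b h0 hP]
  have hA'0 : 0 ≤ bessel (4 * (b * (1 + ε))) := bessel_nonneg (by positivity)
  set P : ℤ × ℤ := ((r : ℤ), (0 : ℤ)) with hPdef
  set L : ℕ := (r - 2) / 2 with hL
  have hKL : K ≤ L := by omega
  have hK0 : (0 : ℝ) < K := by exact_mod_cast (by omega : 0 < K)
  have hKL' : (K : ℝ) ≤ L := by exact_mod_cast hKL
  have hL0 : (0 : ℝ) < L := hK0.trans_le hKL'
  have hLr : 2 * (L : ℝ) + 2 ≤ r := by exact_mod_cast (by omega : 2 * L + 2 ≤ r)
  let A : ℤ × ℤ → ℝ := fun x => cap K L x - cap K L (x - P)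
  have hlenP : len P = r := by
    have h := len_sq P
    simp only [hPdef, Int.cast_natCast, Int.cast_zero] at h
    nlinarith [len_nonneg P]
  have hlenP' : len (0 - P) = r := by
    have h := len_sq (0 - P)
    simp only [hPdef, Prod.fst_sub, Prod.snd_sub, Prod.fst_zero, Prod.snd_zero, Int.cast_sub,
      Int.cast_natCast, Int.cast_zero] at h
    nlinarith [len_nonneg (0 - P)]
  have hgain : A 0 - A P = 2 * (Real.log L - Real.log K) := by
    simp only [A, sub_self, cap_zero hK0 hKL']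
    rw [cap_eq_zero (x := P) hL0 (by linarith), cap_eq_zero (x := 0 - P) hL0 (by linarith)]
    ring
  have hlip : ∀ x, ∀ e ∈ steps, |A (x + e) - A x| ≤ 2 / K := by
    intro x e he
    have h1 := cap_lip (L := (L : ℝ)) hK0 (x := x) he
    have h2 := cap_lip (L := (L : ℝ)) hK0 (x := x - P) he
    rw [show x - P + e = x + e - P by abel] at h2
    simp only [A]
    rw [show cap K L (x + e) - cap K L (x + e - P) - (cap K L x - cap K L (x - P)) =
      (cap K L (x + e) - cap K L x) - (cap K L (x + e - P) - cap K L (x - P)) by ring]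
    refine (abs_sub _ _).trans ?_
    rw [show (2 : ℝ) / K = 1 / K + 1 / K by ring]
    linarith
  have hsq : ∀ x, ∀ e ∈ steps, (A (x + e) - A x) ^ 2 ≤
      (cap K L (x + e) - cap K L x) ^ 2 + (cap K L (x - P + e) - cap K L (x - P)) ^ 2 :=
    fun x e he => dipole_sq hL0 (by linarith) x he
  have hcap : ∑ e ∈ boxEdges R, (A e.1 - A e.2) ^ 2 ≤
      2 * (2 * π * (1 + ε) * Real.log L + C₀) := by
    rw [sum_boxEdges R (fun x y => (A x - A y) ^ 2)]
    calc _ ≤ ∑ x ∈ box R, ∑ e ∈ steps, ((cap K L (x + e) - cap K L x) ^ 2 +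
          (cap K L (x - P + e) - cap K L (x - P)) ^ 2) := by
          refine Finset.sum_le_sum fun x _ => Finset.sum_le_sum fun e he => ?_
          split_ifs
          · rw [← neg_sub, neg_sq]; exact hsq x e he
          · positivity
      _ = ∑ x ∈ box R, ∑ e ∈ steps, (cap K L (x + e) - cap K L x) ^ 2 +
          ∑ x ∈ (box R).image (· - P), ∑ e ∈ steps, (cap K L (x + e) - cap K L x) ^ 2 := by
          simp only [Finset.sum_add_distrib]
          rw [Finset.sum_image (fun _ _ _ _ h => sub_left_inj.1 h)]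
      _ ≤ _ := by
          have h1 := hC₀ L hKL (box R)
          have h2 := hC₀ L hKL ((box R).image (· - P))
          linarith
  let a : ↥(box R) → ℝ := fun x => s * A x
  have hcosh : ∀ e ∈ boxEdges R, Real.cosh (a e.1 - a e.2) ≤ 1 + ε ∧
      Real.cosh (a e.1 - a e.2) - 1 ≤ (1 + ε) * s ^ 2 / 2 * (A e.1 - A e.2) ^ 2 := by
    intro e he
    have hd : |A e.1 - A e.2| ≤ 2 / K := by
      have := hlip e.1 _ (mem_boxEdges.1 he)
      rwa [add_sub_cancel, abs_sub_comm] at this
    set t := (a e.1 - a e.2) ^ 2 / 2 with ht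
    have ht0 : 0 ≤ t := by positivity
    have htε : t ≤ Real.log (1 + ε) := by
      have h1 : (A e.1 - A e.2) ^ 2 ≤ (2 / K) ^ 2 :=
        sq_le_sq.2 (hd.trans (le_abs_self _))
      have h2 : t ≤ 2 * s ^ 2 / (K : ℝ) ^ 2 := by
        have := mul_le_mul_of_nonneg_left h1 (sq_nonneg s)
        rw [div_pow, mul_div_assoc'] at this
        rw [ht, show a e.1 - a e.2 = s * (A e.1 - A e.2) by simp only [a]; ring, mul_pow,
          div_le_iff₀ (two_pos : (0 : ℝ) < 2)]
        refine this.trans (le_of_eq ?_)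
        ring
      refine h2.trans ?_
      rw [div_le_iff₀ (by positivity)]
      exact hKs
    have hexp : Real.exp t ≤ 1 + ε := (Real.exp_le_exp.2 htε).trans_eq (Real.exp_log (by linarith))
    have hc : Real.cosh (a e.1 - a e.2) ≤ Real.exp t := Real.cosh_le_exp_half_sq _
    refine ⟨hc.trans hexp, ?_⟩
    have h3 : Real.exp t - 1 ≤ t * Real.exp t := by
      have h := Real.add_one_le_exp (-t)
      rw [Real.exp_neg] at h
      have := mul_le_mul_of_nonneg_right h (Real.exp_pos t).le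
      rw [inv_mul_cancel₀ (Real.exp_pos t).ne'] at this
      linarith
    calc Real.cosh (a e.1 - a e.2) - 1 ≤ t * Real.exp t := by linarith
      _ ≤ t * (1 + ε) := mul_le_mul_of_nonneg_left hexp ht0
      _ = _ := by simp only [ht, a]; ring
  have hstar : ∀ x, starSum (boxEdges R) (fun e => b * Real.cosh (a e.1 - a e.2)) x ≤
      4 * (b * (1 + ε)) :=
    fun x => starSum_box _ (by positivity)
      (fun e he => mul_le_mul_of_nonneg_left (hcosh e he).1 hb.le) x
  refine (expect_le _ boxEdges_ne b hb.le a ⟨0, h0⟩ ⟨P, hP⟩ _ hstar).trans ?_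
  have hsum : ∑ e ∈ boxEdges R, (Real.cosh (a e.1 - a e.2) - 1) ≤
      (1 + ε) * s ^ 2 / 2 * (2 * (2 * π * (1 + ε) * Real.log L + C₀)) := by
    refine (Finset.sum_le_sum fun e he => (hcosh e he).2).trans ?_
    rw [← Finset.mul_sum]
    exact mul_le_mul_of_nonneg_left hcap (by positivity)
  have hga : a ⟨0, h0⟩ - a ⟨P, hP⟩ = s * (2 * (Real.log L - Real.log K)) := by
    simp only [a, ← hgain]; ring
  rw [hga]
  exact Real.exp_le_exp.2 (add_le_add le_rfl
    (mul_le_mul_of_nonneg_left hsum (mul_nonneg hb.le hA'0)))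

/-- The correlation in every box decays at least like `r ^ (-η)` for every
`η < 1 / (2 π b A(4b))`, with `A = I₁/I₀`. -/
theorem decay {b : ℝ} (hb : 0 < b) {η : ℝ} (hη : η < 1 / (2 * π * b * bessel (4 * b))) :
    ∃ C : ℝ, 0 < C ∧ ∀ r R : ℕ, 1 ≤ r → r ≤ R → correlation b R r ≤ C * (r : ℝ) ^ (-η) := by
  have hA0 : 0 < bessel (4 * b) := bessel_pos (by linarith)
  set A0 := bessel (4 * b)
  obtain ⟨s, hs⟩ : ∃ s, s = 1 / (2 * π * b * A0) := ⟨_, rfl⟩
  rw [← hs] at hη
  have hs0 : 0 < s := by rw [hs]; positivity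
  have hbs : b * (2 * π) * s = 1 / A0 := by rw [hs]; field_simp
  obtain ⟨ε, hε, hgη, hg0⟩ : ∃ ε : ℝ, 0 < ε ∧
      η < s * (2 - bessel (4 * (b * (1 + ε))) * (1 + ε) ^ 2 / A0) ∧
      0 < s * (2 - bessel (4 * (b * (1 + ε))) * (1 + ε) ^ 2 / A0) := by
    have hcont : Continuous fun ε : ℝ =>
        s * (2 - bessel (4 * (b * (1 + ε))) * (1 + ε) ^ 2 / A0) := by
      have := continuous_bessel
      fun_prop
    have h0 : s * (2 - bessel (4 * (b * (1 + 0))) * (1 + 0) ^ 2 / A0) = s := by
      rw [add_zero, mul_one, one_pow, mul_one, div_self hA0.ne']; ring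
    obtain ⟨δ, hδ, hδ'⟩ := Metric.eventually_nhds_iff.1
      ((hcont.tendsto 0).eventually (lt_mem_nhds (a := max η 0) (by rw [h0]; exact max_lt hη hs0)))
    have h := hδ' (y := δ / 2) (by
      rw [Real.dist_eq, sub_zero, abs_of_pos (half_pos hδ)]; linarith)
    exact ⟨δ / 2, half_pos hδ, (max_lt_iff.1 h).1, (max_lt_iff.1 h).2⟩
  set A' := bessel (4 * (b * (1 + ε))) with hA'
  set g := s * (2 - A' * (1 + ε) ^ 2 / A0) with hg
  have hA'0 : 0 ≤ A' := bessel_nonneg (by positivity)
  obtain ⟨K₀, hK₀4, hK₀⟩ := cap_energy hε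
  obtain ⟨K₁, hK₁⟩ := exists_nat_ge (2 * s ^ 2 / Real.log (1 + ε) + 1)
  set K := max K₀ K₁
  have hK4 : 4 ≤ K := hK₀4.trans (le_max_left _ _)
  obtain ⟨C₀, hC₀⟩ := hK₀ K (le_max_left _ _)
  set C₁ := 2 * s * Real.log K + b * A' * (1 + ε) * s ^ 2 * C₀ + g * Real.log 4
  refine ⟨Real.exp C₁ + (2 * K + 4 : ℝ) ^ |η|, by positivity, fun r R hr hrR => ?_⟩
  have hr0 : (0 : ℝ) < r := by exact_mod_cast hr
  rw [add_mul]
  have h0 : (0 : ℤ × ℤ) ∈ box R := by simp [box]
  have hP : ((r : ℤ), (0 : ℤ)) ∈ box R := by simp [box]; omega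
  rcases Nat.lt_or_ge r (2 * K + 4) with hsmall | hlarge
  · rw [correlation_eq b h0 hP]
    refine (expect_cos_le_one _ _ _ _).trans (le_add_of_nonneg_of_le (by positivity) ?_)
    have h1 : (r : ℝ) ^ η ≤ (r : ℝ) ^ |η| :=
      Real.rpow_le_rpow_of_exponent_le (by exact_mod_cast hr) (le_abs_self η)
    have h2 : (r : ℝ) ^ |η| ≤ (2 * K + 4 : ℝ) ^ |η| :=
      Real.rpow_le_rpow hr0.le (by exact_mod_cast hsmall.le) (abs_nonneg η)
    rw [Real.rpow_neg hr0.le, ← div_eq_mul_inv, one_le_div (Real.rpow_pos_of_pos hr0 η)]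
    exact h1.trans h2
  refine le_add_of_le_of_nonneg ?_ (by positivity)
  have hlog : 0 < Real.log (1 + ε) := Real.log_pos (by linarith)
  have hK1 : 2 * s ^ 2 / Real.log (1 + ε) ≤ K := by
    have : (K₁ : ℝ) ≤ K := by exact_mod_cast le_max_right K₀ K₁
    linarith
  rw [div_le_iff₀ hlog] at hK1
  have hKs : 2 * s ^ 2 ≤ Real.log (1 + ε) * (K : ℝ) ^ 2 := by
    have h := mul_le_mul_of_nonneg_left
      (show (1 : ℝ) ≤ K by exact_mod_cast (by omega : 1 ≤ K))
      (mul_nonneg (Nat.cast_nonneg K) hlog.le)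
    rw [mul_one] at h
    calc 2 * s ^ 2 ≤ (K : ℝ) * Real.log (1 + ε) := hK1
      _ ≤ (K : ℝ) * Real.log (1 + ε) * K := h
      _ = Real.log (1 + ε) * (K : ℝ) ^ 2 := by ring
  refine (dipole_bound hb hε hK4 hKs hC₀ hlarge hrR).trans ?_
  obtain ⟨L, hL⟩ : ∃ L : ℕ, L = (r - 2) / 2 := ⟨_, rfl⟩
  rw [← hL, ← hA', Real.rpow_def_of_pos hr0, ← Real.exp_add, Real.exp_le_exp]
  have hL0 : (0 : ℝ) < L := by exact_mod_cast (by omega : 0 < L)
  have hid : b * A' * ((1 + ε) * s ^ 2 / 2 * (2 * (2 * π * (1 + ε) * Real.log L + C₀))) =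
      s * (A' * (1 + ε) ^ 2 / A0) * Real.log L + b * A' * (1 + ε) * s ^ 2 * C₀ := by
    linear_combination (A' * (1 + ε) ^ 2 * s * Real.log L) * hbs
  have hlogr : Real.log r ≤ Real.log L + Real.log 4 := by
    rw [← Real.log_mul hL0.ne' four_ne_zero]
    exact Real.log_le_log hr0 (by exact_mod_cast (by omega : r ≤ L * 4))
  have hr1 : 0 ≤ Real.log r := Real.log_natCast_nonneg r
  simp only [C₁]
  nlinarith [mul_le_mul_of_nonneg_left hlogr hg0.le, mul_le_mul_of_nonneg_right hgη.le hr1]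

end Vale.Agent.P159
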