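import Mathlib

/-!
# Planar rotators on a finite graph

Angles live in `ℝ/2πℤ` with normalised Haar measure. A finite set `E` of ordered
pairs lists the interacting pairs.
-/

open MeasureTheory Filter Topology
open scoped Real

namespace Vale.Agent.P159

/-- The period of the angles is positive. -/
instance fact_two_pi_pos : Fact (0 < 2 * π) := ⟨Real.two_pi_pos⟩

/-- The circle of angles. -/
abbrev Angles := AddCircle (2 * π)

/-- The uniform probability measure on angles. -/
noncomputable abbrev uni : Measure Angles := AddCircle.haarAddCircle

/-- The cosine of an angle. -/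
noncomputable def cosA (θ : Angles) : ℝ := (AddCircle.toCircle θ : ℂ).re

/-- The sine of an angle. -/
noncomputable def sinA (θ : Angles) : ℝ := (AddCircle.toCircle θ : ℂ).im

lemma cosA_coe (t : ℝ) : cosA (t : Angles) = Real.cos t := by
  rw [cosA, AddCircle.toCircle_apply_mk, Circle.coe_exp, Complex.exp_ofReal_mul_I_re,
    div_self Real.two_pi_pos.ne', one_mul]

lemma sinA_coe (t : ℝ) : sinA (t : Angles) = Real.sin t := by
  rw [sinA, AddCircle.toCircle_apply_mk, Circle.coe_exp, Complex.exp_ofReal_mul_I_im,
    div_self Real.two_pi_pos.ne', one_mul]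

@[fun_prop]
lemma continuous_cosA : Continuous cosA :=
  Complex.continuous_re.comp (continuous_subtype_val.comp AddCircle.continuous_toCircle)

@[fun_prop]
lemma continuous_sinA : Continuous sinA :=
  Complex.continuous_im.comp (continuous_subtype_val.comp AddCircle.continuous_toCircle)

lemma cosA_neg (x : Angles) : cosA (-x) = cosA x := by
  induction x using QuotientAddGroup.induction_on with
  | H t => rw [← AddCircle.coe_neg, cosA_coe, cosA_coe, Real.cos_neg]

lemma sinA_neg (x : Angles) : sinA (-x) = -sinA x := by
  induction x using QuotientAddGroup.induction_on with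
  | H t => rw [← AddCircle.coe_neg, sinA_coe, sinA_coe, Real.sin_neg]

lemma cosA_add (x y : Angles) : cosA (x + y) = cosA x * cosA y - sinA x * sinA y := by
  simp [cosA, sinA, AddCircle.toCircle_add, Complex.mul_re]

lemma cosA_le_one (x : Angles) : cosA x ≤ 1 :=
  (Complex.re_le_norm _).trans_eq (Circle.norm_coe _)

/-- The ratio of the first two modified Bessel functions, `I₁(K)/I₀(K)`. -/
noncomputable def bessel (K : ℝ) : ℝ :=
  (∫ t, cosA t * Real.exp (K * cosA t) ∂uni) / ∫ t, Real.exp (K * cosA t) ∂uni

variable {V : Type*} [Fintype V]

/-- Configurations. -/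
abbrev Config (V : Type*) := V → Angles

/-- The product measure. -/
noncomputable abbrev uniV (V : Type*) [Fintype V] : Measure (Config V) :=
  Measure.pi fun _ : V => uni

/-- The Boltzmann weight with coupling `J`. -/
noncomputable def weight (E : Finset (V × V)) (J : V × V → ℝ) (θ : Config V) : ℝ :=
  Real.exp (∑ e ∈ E, J e * cosA (θ e.1 - θ e.2))

/-- The partition function. -/
noncomputable def partition (E : Finset (V × V)) (J : V × V → ℝ) : ℝ :=
  ∫ θ, weight E J θ ∂uniV V

/-- Expectation of an observable. -/
noncomputable def expect (E : Finset (V × V)) (J : V × V → ℝ) (f : Config V → ℝ) : ℝ :=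
  (∫ θ, f θ * weight E J θ ∂uniV V) / partition E J

lemma integrable_of_continuous {X G : Type*} [TopologicalSpace X] [CompactSpace X]
    [MeasurableSpace X] [OpensMeasurableSpace X] {μ : Measure X} [IsFiniteMeasure μ]
    [NormedAddCommGroup G] [SecondCountableTopologyEither X G] {f : X → G}
    (hf : Continuous f) : Integrable f μ :=
  hf.integrable_of_hasCompactSupport (HasCompactSupport.of_compactSpace f)

omit [Fintype V] in
lemma continuous_weight (E : Finset (V × V)) (J : V × V → ℝ) : Continuous (weight E J) := by
  unfold weight
  fun_prop

lemma partition_pos (E : Finset (V × V)) (J : V × V → ℝ) : 0 < partition E J := by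
  unfold partition weight
  apply integral_exp_pos
  exact integrable_of_continuous (continuous_weight E J)

end Vale.Agent.P159
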