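import Vale.Agent.P159.Model

/-!
# Shifting the angles in imaginary directions

The weight continues to an entire function of a common shift `z • a`; by invariance
of Haar measure its integral does not depend on real, hence on complex, `z`.
-/

open MeasureTheory Filter Topology Complex
open scoped Real

namespace Vale.Agent.P159

set_option linter.unusedSectionVars false

variable {V : Type*} [Fintype V] (E : Finset (V × V)) (J : V × V → ℝ) (a : V → ℝ) (p q : V)

/-- The unit complex number of an angle. -/
noncomputable def phase (x : Angles) : ℂ := (AddCircle.toCircle x : ℂ)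

@[fun_prop]
lemma continuous_phase : Continuous phase :=
  continuous_subtype_val.comp AddCircle.continuous_toCircle

lemma phase_neg (x : Angles) : phase (-x) = (starRingEnd ℂ) (phase x) := by
  rw [phase, phase, AddCircle.toCircle_neg, Circle.coe_inv_eq_conj]

lemma phase_add_coe (x : Angles) (s : ℝ) :
    phase (x + (s : Angles)) = phase x * Complex.exp (s * I) := by
  rw [phase, phase, AddCircle.toCircle_add, AddCircle.toCircle_apply_mk,
    div_self Real.two_pi_pos.ne', one_mul, Circle.coe_mul, Circle.coe_exp]

/-- The exponent after a shift by `z • a`, with the factor of the observable included. -/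
noncomputable def action (z : ℂ) (θ : Config V) : ℂ :=
  (∑ e ∈ E, (J e / 2 : ℂ) *
      (phase (θ e.1 - θ e.2) * Complex.exp (z * (a e.1 - a e.2) * I) +
        phase (-(θ e.1 - θ e.2)) * Complex.exp (-(z * (a e.1 - a e.2) * I)))) +
    z * (a p - a q) * I

/-- The shifted integrand. -/
noncomputable def integrand (z : ℂ) (θ : Config V) : ℂ :=
  phase (θ p - θ q) * Complex.exp (action E J a p q z θ)

/-- The derivative of `action` in `z`. -/
noncomputable def action' (z : ℂ) (θ : Config V) : ℂ :=
  (∑ e ∈ E, (J e / 2 : ℂ) *
      (phase (θ e.1 - θ e.2) *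
          (Complex.exp (z * (a e.1 - a e.2) * I) * ((a e.1 - a e.2) * I)) +
        phase (-(θ e.1 - θ e.2)) *
          (Complex.exp (-(z * (a e.1 - a e.2) * I)) * (-((a e.1 - a e.2) * I))))) +
    (a p - a q) * I

lemma hasDerivAt_action (z : ℂ) (θ : Config V) :
    HasDerivAt (fun w => action E J a p q w θ) (action' E J a p q z θ) z := by
  have hlin : ∀ c : ℂ, HasDerivAt (fun w : ℂ => w * c * I) (c * I) z := fun c => by
    simpa using ((hasDerivAt_id z).mul_const c).mul_const I
  unfold action action'
  refine HasDerivAt.add (HasDerivAt.fun_sum fun e _ => HasDerivAt.const_mul _ ?_) (hlin _)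
  exact ((hlin _).cexp.const_mul _).add ((hlin _).neg.cexp.const_mul _)

lemma continuous_integrand_pair :
    Continuous fun x : ℂ × Config V => integrand E J a p q x.1 x.2 := by
  unfold integrand action
  fun_prop

lemma differentiable_integral :
    Differentiable ℂ fun z => ∫ θ, integrand E J a p q z θ ∂uniV V := by
  intro z₀
  have hcd : Continuous fun x : ℂ × Config V =>
      integrand E J a p q x.1 x.2 * action' E J a p q x.1 x.2 := by
    unfold integrand action action'
    fun_prop
  obtain ⟨C, hC⟩ := ((isCompact_closedBall z₀ 1).prod isCompact_univ).exists_bound_of_continuousOn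
    hcd.continuousOn
  have hc := continuous_integrand_pair E J a p q
  refine (hasDerivAt_integral_of_dominated_loc_of_deriv_le (μ := uniV V)
    (s := Metric.closedBall z₀ 1) (bound := fun _ => C)
    (F' := fun z θ => integrand E J a p q z θ * action' E J a p q z θ)
    (Metric.closedBall_mem_nhds z₀ one_pos) ?_ ?_ ?_ ?_ ?_ ?_).2.differentiableAt
  · filter_upwards with z
    exact (hc.comp (continuous_const.prodMk continuous_id)).aestronglyMeasurable
  · exact integrable_of_continuous (hc.comp (continuous_const.prodMk continuous_id))
  · exact (hcd.comp (continuous_const.prodMk continuous_id)).aestronglyMeasurable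
  · filter_upwards with θ z hz
    exact hC (z, θ) ⟨hz, Set.mem_univ _⟩
  · exact integrable_const C
  · filter_upwards with θ z _
    have h := ((hasDerivAt_action E J a p q z θ).cexp).const_mul (phase (θ p - θ q))
    simpa only [integrand, mul_assoc] using h

lemma integrand_real (s : ℝ) (θ : Config V) :
    integrand E J a p q s θ =
      phase ((θ + fun x => ((s * a x : ℝ) : Angles)) p - (θ + fun x => ((s * a x : ℝ) : Angles)) q)
        * (weight E J (θ + fun x => ((s * a x : ℝ) : Angles)) : ℝ) := by
  have hsub : ∀ x y, (θ + fun x => ((s * a x : ℝ) : Angles)) x -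
      (θ + fun x => ((s * a x : ℝ) : Angles)) y =
      (θ x - θ y) + ((s * (a x - a y) : ℝ) : Angles) := by
    intro x y
    simp only [Pi.add_apply]
    rw [mul_sub, AddCircle.coe_sub]
    abel
  have hterm : ∀ e : V × V, (J e / 2 : ℂ) *
      (phase (θ e.1 - θ e.2) * Complex.exp ((s : ℂ) * (a e.1 - a e.2) * I) +
        phase (-(θ e.1 - θ e.2)) * Complex.exp (-((s : ℂ) * (a e.1 - a e.2) * I))) =
      ((J e * cosA (θ e.1 - θ e.2 + ((s * (a e.1 - a e.2) : ℝ) : Angles)) : ℝ) : ℂ) := by
    intro e
    have h1 : cosA (θ e.1 - θ e.2 + ((s * (a e.1 - a e.2) : ℝ) : Angles)) =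
        (phase (θ e.1 - θ e.2 + ((s * (a e.1 - a e.2) : ℝ) : Angles))).re := rfl
    rw [h1, phase_add_coe, phase_neg, Complex.ofReal_mul,
      Complex.re_eq_add_conj, map_mul, ← Complex.exp_conj]
    push_cast
    simp only [map_mul, map_sub, Complex.conj_I, Complex.conj_ofReal, mul_neg]
    ring
  simp only [integrand, action, weight, hsub, phase_add_coe, hterm, Complex.ofReal_exp,
    Complex.ofReal_sum]
  rw [Complex.exp_add]
  push_cast
  ring

lemma integral_real (s : ℝ) :
    ∫ θ, integrand E J a p q s θ ∂uniV V = ∫ θ, integrand E J a p q 0 θ ∂uniV V := by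
  rw [← Complex.ofReal_zero]
  simp only [integrand_real]
  rw [integral_add_right_eq_self (μ := uniV V)
      (fun θ => phase (θ p - θ q) * ((weight E J θ : ℝ) : ℂ)),
    integral_add_right_eq_self (μ := uniV V)
      (fun θ => phase (θ p - θ q) * ((weight E J θ : ℝ) : ℂ))]

/-- The integral is unchanged by a complex shift. -/
lemma integral_shift (z : ℂ) :
    ∫ θ, integrand E J a p q z θ ∂uniV V = ∫ θ, integrand E J a p q 0 θ ∂uniV V := by
  have h := (analyticOnNhd_univ_iff_differentiable.2
    (differentiable_integral E J a p q)).eq_of_frequently_eq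
      (g := fun _ => ∫ θ, integrand E J a p q 0 θ ∂uniV V) (z₀ := 0) analyticOnNhd_const ?_
  · exact congrFun h z
  · have ht : Tendsto (fun n : ℕ => (((1 / (n + 1 : ℝ)) : ℝ) : ℂ)) atTop (𝓝[≠] 0) := by
      refine tendsto_nhdsWithin_iff.2 ⟨?_, Eventually.of_forall fun n => ?_⟩
      · simpa [Function.comp_def] using
          (Complex.continuous_ofReal.tendsto _).comp tendsto_one_div_add_atTop_nhds_zero_nat
      · simp only [Set.mem_compl_iff, Set.mem_singleton_iff, Complex.ofReal_eq_zero]
        positivity
    exact ht.frequently (Frequently.of_forall fun n => integral_real E J a p q _)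

/-- A two-point correlation is at most a ratio of partition functions. -/
theorem integral_cos_le :
    ∫ θ, cosA (θ p - θ q) * weight E J θ ∂uniV V ≤
      Real.exp (-(a p - a q)) *
        partition E (fun e => J e * Real.cosh (a e.1 - a e.2)) := by
  have h0 : (fun θ => cosA (θ p - θ q) * weight E J θ) =
      fun θ => (integrand E J a p q 0 θ).re := by
    funext θ
    have := integrand_real E J a p q 0 θ
    rw [Complex.ofReal_zero] at this
    rw [this]
    simp only [zero_mul, AddCircle.coe_zero, Pi.add_apply, add_zero, Complex.re_mul_ofReal]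
    simp only [weight, cosA, phase, Pi.add_apply, add_zero]
  rw [h0]
  have hint := fun z : ℂ => integrable_of_continuous (μ := uniV V)
    ((continuous_integrand_pair E J a p q).comp (continuous_const.prodMk continuous_id) :
      Continuous fun θ => integrand E J a p q z θ)
  calc ∫ θ, (integrand E J a p q 0 θ).re ∂uniV V
      = (∫ θ, integrand E J a p q 0 θ ∂uniV V).re := integral_re (hint 0)
    _ = (∫ θ, integrand E J a p q I θ ∂uniV V).re := by rw [integral_shift E J a p q I]
    _ ≤ ‖∫ θ, integrand E J a p q I θ ∂uniV V‖ := Complex.re_le_norm _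
    _ ≤ ∫ θ, ‖integrand E J a p q I θ‖ ∂uniV V := norm_integral_le_integral_norm _
    _ = Real.exp (-(a p - a q)) *
        partition E (fun e => J e * Real.cosh (a e.1 - a e.2)) := by
      rw [partition, ← integral_const_mul]
      refine integral_congr_ae (Eventually.of_forall fun θ => ?_)
      simp only [integrand, norm_mul, Complex.norm_exp, phase, Circle.norm_coe, one_mul,
        weight, ← Real.exp_add]
      congr 1
      simp only [action, Complex.add_re, Complex.re_sum]
      rw [add_comm]
      congr 1
      · simp [Complex.mul_re, Complex.mul_im]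
      · refine Finset.sum_congr rfl fun e _ => ?_
        rw [phase_neg]
        have hI : I * ((a e.1 : ℂ) - a e.2) * I = ((-(a e.1 - a e.2) : ℝ) : ℂ) := by
          push_cast
          linear_combination ((a e.1 : ℂ) - a e.2) * Complex.I_mul_I
        rw [hI, ← Complex.ofReal_neg, ← Complex.ofReal_exp, ← Complex.ofReal_exp,
          neg_neg, show (J e / 2 : ℂ) = ((J e / 2 : ℝ) : ℂ) by push_cast; rfl]
        simp only [Complex.re_ofReal_mul, Complex.add_re, Complex.re_mul_ofReal,
          Complex.conj_re, Real.cosh_eq, phase, cosA]
        ring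

end Vale.Agent.P159
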